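import Vale.Agent.P141.H677.FDb
import Vale.Agent.P141.H958.StarB

/-!
# P141, line (A): caps and energies of a scalar path

The lemmas `capS_swap`, `psd_rect`, `capS_rects`, `en_le_pwr`, `born_le_pwr` of `H816.NumAI`
(by helper816), repeated here with light imports.
-/

namespace Vale.Agent.P141.H749.Star

open Finset Matrix
open Vale.Agent.P075 (Ix val)
open Vale.Agent.P141.PL (Pt iv hs ix mem_iv ix_ix cx card_iv)
open Vale.Agent.P141.PL.H588 (Xg Xg_apply Xg_psd Pl)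
open Vale.Agent.P141.H103 (un QW QK PA PA_eq GW)
open Vale.Agent.P141.H205
open Vale.Agent.P141.H736 (Path Agree sqb sqQ sqb_nonneg sqb_eq)
open Vale.Agent.P141.H958 (pwr pwr_nonneg sqb_swap)

noncomputable section

open scoped Classical

/-! ### Caps -/

/-- the cap of the transposed slot -/
theorem capS_swap {c : ℝ} {k : ℕ} {F : ℤ → ℤ → ℝ} {n m : ℤ} (hc : 0 ≤ c)
    (h : CapS c k k (un F) n m) : CapS c k k (un fun y z => F z y) m n := by
  intro w
  have e0 : ∀ (X : ℤ → ℤ → ℝ) (x : ℤ) (v : ℤ → ℝ) (q : ℤ),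
      ∑ l : Unit, (∑ y ∈ iv k q, v y * un X x y l) ^ 2 = (∑ y ∈ iv k q, v y * X x y) ^ 2 := by
    intro X x v q
    rw [Fintype.sum_unique]
    rfl
  have h1 := h fun y => ∑ x ∈ iv k n, w x * F x y
  simp only [e0] at h1 ⊢
  set g : ℤ → ℝ := fun y => ∑ x ∈ iv k n, w x * F x y with hg
  set S : ℝ := ∑ y ∈ iv k m, g y ^ 2 with hS
  set W : ℝ := ∑ x ∈ iv k n, w x ^ 2 with hW
  have hS0 : 0 ≤ S := sum_nonneg fun _ _ => sq_nonneg _
  have hW0 : 0 ≤ W := sum_nonneg fun _ _ => sq_nonneg _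
  have hk : (0 : ℝ) < 2 ^ k * 2 ^ k := by positivity
  have e1 : S = ∑ x ∈ iv k n, w x * ∑ y ∈ iv k m, g y * F x y := by
    rw [hS]
    simp only [mul_sum]
    rw [sum_comm]
    refine sum_congr rfl fun y _ => ?_
    rw [sq]
    conv_lhs => rw [hg]
    simp only [sum_mul]
    refine sum_congr rfl fun x _ => ?_
    ring
  have e2 : S ^ 2 ≤ W * (c * (2 ^ k * 2 ^ k) * S) := by
    rw [e1]
    refine (sum_mul_sq_le_sq_mul_sq _ _ _).trans ?_
    rw [← e1]
    exact mul_le_mul_of_nonneg_left h1 hW0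
  show S ≤ c * (2 ^ k * 2 ^ k) * W
  rcases hS0.eq_or_lt with h0 | h0
  · rw [← h0]
    positivity
  · have e3 : S * S ≤ (c * (2 ^ k * 2 ^ k) * W) * S := by nlinarith
    exact le_of_mul_le_mul_right e3 h0

/-- the quadratic form of `QW a k` without weight -/
theorem form_QW1 {κ : Type*} [Fintype κ] [DecidableEq κ] (a k : ℕ) (b : ℤ → ℤ → κ → ℝ) (n m : ℤ)
    (w : Ix k → ℝ) : w ⬝ᵥ QW a k b (fun _ => 1) n m *ᵥ w = ((2 : ℝ) ^ a * 2 ^ k)⁻¹ *
      ∑ x ∈ iv a n, ∑ l, (∑ j, w j * b x (2 ^ k * m + val k j) l) ^ 2 := by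
  have e3 : ∀ x, ∑ l, (∑ j, w j * b x (2 ^ k * m + val k j) l) ^ 2 =
      ∑ j : Ix k, ∑ j' : Ix k, w j * w j' *
        (b x (2 ^ k * m + val k j) ⬝ᵥ b x (2 ^ k * m + val k j')) := by
    intro x
    have e4 : ∀ l, (∑ j, w j * b x (2 ^ k * m + val k j) l) ^ 2 =
        ∑ j : Ix k, ∑ j' : Ix k, w j * w j' *
          (b x (2 ^ k * m + val k j) l * b x (2 ^ k * m + val k j') l) := by
      intro l
      rw [sq, Finset.sum_mul_sum]
      exact sum_congr rfl fun j _ => sum_congr rfl fun j' _ => by ring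
    simp only [e4]
    rw [sum_comm]
    refine sum_congr rfl fun j _ => ?_
    rw [sum_comm]
    refine sum_congr rfl fun j' _ => ?_
    rw [dotProduct, mul_sum]
  have hG : ∀ j j' : Ix k, QW a k b (fun _ => (1 : Matrix κ κ ℝ)) n m j j' =
      ((2 : ℝ) ^ a * 2 ^ k)⁻¹ *
      ∑ x ∈ iv a n, b x (2 ^ k * m + val k j) ⬝ᵥ b x (2 ^ k * m + val k j') := by
    intro j j'
    unfold H103.QW
    congr 1
    refine sum_congr rfl fun x _ => ?_
    rw [one_mulVec]
  have e5 : w ⬝ᵥ QW a k b (fun _ => (1 : Matrix κ κ ℝ)) n m *ᵥ w =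
    ∑ j : Ix k, w j * ∑ j' : Ix k, QW a k b (fun _ => (1 : Matrix κ κ ℝ)) n m j j' * w j' := rfl
  rw [e5]
  simp only [e3, hG]
  rw [sum_comm, mul_sum]
  refine sum_congr rfl fun j _ => ?_
  rw [sum_comm, mul_sum, mul_sum]
  refine sum_congr rfl fun j' _ => ?_
  rw [← mul_sum]
  ring

/-- the cap as a matrix inequality, every rectangle -/
theorem psd_rect {c : ℝ} {a k : ℕ} {F : ℤ → ℤ → ℝ} {n m : ℤ} (h : CapS c a k (un F) n m) :
    (c • (1 : Matrix (Ix k) (Ix k) ℝ) - PA F k a n m).PosSemidef := by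
  have e : PA F k a n m = QW a k (un F) (fun _ => 1) n m := by
    rw [PA_eq]
    unfold H103.QK
    simp only [inv_one]
  have hs : (PA F k a n m)ᵀ = PA F k a n m := by
    have := (Xg_psd a k F n m).1
    rwa [Matrix.IsHermitian, conjTranspose_eq_transpose_of_trivial] at this
  have key : ∀ w : Ix k → ℝ, w ⬝ᵥ PA F k a n m *ᵥ w ≤ c * (w ⬝ᵥ w) := by
    intro w
    set v : ℤ → ℝ := fun y => ∑ j', if 2 ^ k * m + (val k j' : ℤ) = y then w j' else 0 with hv
    have hvj : ∀ j : Ix k, v (2 ^ k * m + val k j) = w j := by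
      intro j
      rw [hv]
      beta_reduce
      rw [sum_eq_single j]
      · rw [if_pos rfl]
      · intro j' _ hj'
        rw [if_neg]
        intro h2
        apply hj'
        apply H205.val_inj
        have : ((val k j' : ℕ) : ℤ) = (val k j : ℕ) := by linarith
        exact_mod_cast this
      · intro h2
        exact absurd (mem_univ _) h2
    have h1 := h v
    have e1 : ∑ y ∈ iv k m, v y ^ 2 = w ⬝ᵥ w := by
      rw [PL.H588.sum_iv, dotProduct]
      exact sum_congr rfl fun j _ => by rw [hvj, sq]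
    have e2 : ∑ x ∈ iv a n, ∑ l, (∑ y ∈ iv k m, v y * un F x y l) ^ 2 =
        ∑ x ∈ iv a n, ∑ l, (∑ j, w j * un F x (2 ^ k * m + val k j) l) ^ 2 := by
      refine sum_congr rfl fun x _ => sum_congr rfl fun l _ => ?_
      rw [PL.H588.sum_iv]
      congr 1
      exact sum_congr rfl fun j _ => by rw [hvj]
    rw [e1, e2] at h1
    rw [e, form_QW1, inv_mul_le_iff₀ (by positivity)]
    refine h1.trans (le_of_eq ?_)
    ring
  refine PosSemidef.of_dotProduct_mulVec_nonneg ?_ fun w => ?_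
  · rw [Matrix.IsHermitian, conjTranspose_eq_transpose_of_trivial, transpose_sub, transpose_smul,
      transpose_one, hs]
  rw [star_trivial, sub_mulVec, dotProduct_sub, smul_mulVec, one_mulVec, dotProduct_smul,
    smul_eq_mul, sub_nonneg]
  exact key w

/-- rectangles with the longer side in the outer variable -/
theorem capS_rects {c : ℝ} {k : ℕ} {F : ℤ → ℤ → ℝ}
    (h : ∀ n m, CapS c k k (un F) n m) : ∀ (r : ℕ) (n m : ℤ), CapS c (k + r) k (un F) n m
  | 0, n, m => h n m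
  | r + 1, n, m => capS_out (capS_rects h r (2 * n) m) (capS_rects h r (2 * n + 1) m)

/-! ### Energies -/

theorem sum_sub {k N : ℕ} (hk : k ≤ N) (R : ℤ) (f : ℤ → ℝ) :
    ∑ x ∈ iv N R, f x = ∑ n ∈ iv (N - k) R, ∑ x ∈ iv k n, f x := by
  have e : N = (N - k) + k := by omega
  conv_lhs => rw [e]
  rw [PL.H990.sum_iv_add]

/-- squares of the root -/
theorem root_sq {k N : ℕ} (hk : k ≤ N) (R S : ℤ) (φ : ℤ → ℤ → ℤ → ℤ → ℝ) :
    ∑ y ∈ iv N S, ∑ z ∈ iv N R, φ (ix k z) (ix k y) z y =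
      ∑ m ∈ iv (N - k) S, ∑ n ∈ iv (N - k) R, ∑ y ∈ iv k m, ∑ z ∈ iv k n, φ n m z y := by
  rw [sum_sub hk S]
  refine sum_congr rfl fun m _ => ?_
  have e1 : ∀ y ∈ iv k m, ∑ z ∈ iv N R, φ (ix k z) (ix k y) z y =
      ∑ n ∈ iv (N - k) R, ∑ z ∈ iv k n, φ n m z y := by
    intro y hy
    rw [sum_sub hk R]
    refine sum_congr rfl fun n _ => sum_congr rfl fun z hz => ?_
    rw [mem_iv.1 hy, mem_iv.1 hz]
  rw [sum_congr rfl e1, sum_comm]

/-- **Energies at all times** of a path which starts at zero. -/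
theorem en_le_pwr {N : ℕ} {R S : ℤ} {Q : ℕ → ℤ → ℤ → Prop} {F : ℕ → ℤ → ℤ → ℝ}
    (hP : Path N R S Q F) (h0 : F 0 = 0) : ∀ k ≤ N,
    ∑ y ∈ iv N S, ∑ z ∈ iv N R, F k z y ^ 2 ≤ pwr N R S Q F := by
  have key : ∀ k ≤ N, ∑ y ∈ iv N S, ∑ z ∈ iv N R, F k z y ^ 2 ≤
      ∑ j ∈ range k, sqQ N R S j (Q j) (F (j + 1)) := by
    intro k
    induction k with
    | zero =>
      intro _
      rw [range_zero, sum_empty, h0]
      simp
    | succ k ih =>
      intro hk
      rw [sum_range_succ]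
      have h1 := ih (by omega)
      have e1 := root_sq (k := k) (by omega : k ≤ N) R S fun _ _ z y => F (k + 1) z y ^ 2
      have e2 := root_sq (k := k) (by omega : k ≤ N) R S fun _ _ z y => F k z y ^ 2
      rw [e1]
      rw [e2] at h1
      have h2 : ∑ m ∈ iv (N - k) S, ∑ n ∈ iv (N - k) R, ∑ y ∈ iv k m, ∑ z ∈ iv k n,
          F (k + 1) z y ^ 2 ≤ ∑ m ∈ iv (N - k) S, ∑ n ∈ iv (N - k) R,
          (∑ y ∈ iv k m, ∑ z ∈ iv k n, F k z y ^ 2 +
            if Q k n m then sqb k n m (F (k + 1)) else 0) := by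
        refine sum_le_sum fun m hm => sum_le_sum fun n hn => ?_
        by_cases hQ : Q k n m
        · rw [if_pos hQ]
          have : 0 ≤ ∑ y ∈ iv k m, ∑ z ∈ iv k n, F k z y ^ 2 :=
            sum_nonneg fun _ _ => sum_nonneg fun _ _ => sq_nonneg _
          show sqb k n m (F (k + 1)) ≤ _
          linarith
        · rw [if_neg hQ, add_zero]
          refine le_of_eq (sum_congr rfl fun y hy => sum_congr rfl fun z hz => ?_)
          rw [hP k (by omega) n hn m hm hQ z hz y hy]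
      refine h2.trans ?_
      simp only [sum_add_distrib]
      exact add_le_add h1 le_rfl
  intro k hk
  refine (key k hk).trans ?_
  unfold H958.pwr
  exact sum_le_sum_of_subset_of_nonneg (range_subset_range.2 hk)
    fun j _ _ => H736.sqQ_nonneg ..

/-- **Born energies** of a path. -/
theorem born_le_pwr {N : ℕ} {R S : ℤ} {Q : ℕ → ℤ → ℤ → Prop} {F : ℕ → ℤ → ℤ → ℝ}
    {H : ℕ → ℤ → ℤ → Prop} (hH : ∀ k < N, ∀ n m, H k n m → Q k n m) :
    ∑ k ∈ range N, ∑ y ∈ iv N S, ∑ z ∈ iv N R,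
      (if H k (ix k z) (ix k y) then F (k + 1) z y ^ 2 else 0) ≤ pwr N R S Q F := by
  unfold H958.pwr
  refine sum_le_sum fun k hk => ?_
  have hk' : k < N := mem_range.1 hk
  rw [root_sq hk'.le R S fun n m z y => if H k n m then F (k + 1) z y ^ 2 else 0]
  unfold H736.sqQ
  refine sum_le_sum fun m _ => sum_le_sum fun n _ => ?_
  by_cases hh : H k n m
  · rw [if_pos (hH k hk' n m hh)]
    simp only [if_pos hh]
    exact le_rfl
  · simp only [if_neg hh, sum_const_zero]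
    split_ifs
    · exact sqb_nonneg ..
    · exact le_rfl

end

end Vale.Agent.P141.H749.Star
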