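import Vale.Agent.P141.H170.RowC
import Vale.Agent.P141.H749.StarZ

/-!
# P141, line (A): the raw square sum of the stopped part at class data, the side of `A`

* `capA_fd` : caps of the scalar slot, outer `y`, middle `z`, rectangles, times `k` and `k + 1`;
* `eaF`, `eaF_sum` : the power of the scalar slot at one `x0`, sum over `x0`;
* `CSd` : the data of the vector slot at one `x0`;
* `star_x0` : the raw square sum at one `x0` (`H170.RowC.rawSq`); `RF`, `star_le` : all `x0`.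
-/

namespace Vale.Agent.P141.H749.Star

open Finset Matrix
open Vale.Agent.P075 (Ix val)
open Vale.Agent.P141.PL (Pt iv ix mem_iv ix_ix cx card_iv)
open Vale.Agent.P141.PL.H588 (hd Pl)
open Vale.Agent.P141.PL.H315 (Tri)
open Vale.Agent.P141.H48 (BSl sst)
open Vale.Agent.P141.H103 (un QW PA GW)
open Vale.Agent.P141.H205 (CapS)
open Vale.Agent.P141.H736 (Path sqb sqQ sqb_nonneg)
open Vale.Agent.P141.H958 (pwr pwr_nonneg)
open Vale.Agent.P141.H401 (qA qC)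
open Vale.Agent.P141.H576 (QD QD_pack Dd_sst)
open Vale.Agent.P141.H677 (rt cP cP_pl)
open Vale.Agent.P141.H677.Sk (FDs FamA FamV)

noncomputable section

open scoped Classical

/-! ### The power of a scalar slot, summed over `x0` -/

/-- **Sum over `x0` of the powers**: masses times packing. -/
theorem pwr_sum {K : ℕ} {R S : ℤ} {Q : ℕ → ℤ → ℤ → ℤ → Prop} {A : ℤ → ℕ → ℤ → ℤ → ℝ}
    {μ c : ℝ} (hμ : 0 ≤ μ)
    (hm : ∀ k < K, ∀ i : ℤ, ∀ n' ∈ iv (K - k) R, ∀ m' ∈ iv (K - k) S,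
      ∑ x0 ∈ iv k i, sqb k n' m' (A x0 (k + 1)) ≤ μ * 8 ^ k)
    (hq : ∀ x0, ∑ k ∈ range K, ∑ m ∈ iv (K - k) S, ∑ n ∈ iv (K - k) R,
      (if Q k (ix k x0) n m then (4 : ℝ) ^ k else 0) ≤ c * 4 ^ K) (t : ℤ) :
    ∑ x0 ∈ iv K t, pwr K R S (fun k n m => Q k (ix k x0) n m) (A x0) ≤ c * μ * 8 ^ K := by
  have step : ∀ k < K, ∑ x0 ∈ iv K t, ∑ m ∈ iv (K - k) S, ∑ n ∈ iv (K - k) R,
      (if Q k (ix k x0) n m then sqb k n m (A x0 (k + 1)) else 0) ≤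
      ∑ x0 ∈ iv K t, ∑ m ∈ iv (K - k) S, ∑ n ∈ iv (K - k) R,
        (if Q k (ix k x0) n m then μ * 4 ^ k else 0) := by
    intro k hk
    rw [sum_sub hk.le t, sum_sub hk.le t]
    refine sum_le_sum fun i _ => ?_
    have e1 : ∀ (f : ℤ → ℤ → ℤ → ℝ), ∑ x0 ∈ iv k i, ∑ m ∈ iv (K - k) S,
        ∑ n ∈ iv (K - k) R, (if Q k (ix k x0) n m then f x0 m n else 0) =
        ∑ m ∈ iv (K - k) S, ∑ n ∈ iv (K - k) R,
          (if Q k i n m then ∑ x0 ∈ iv k i, f x0 m n else 0) := by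
      intro f
      rw [sum_comm]
      refine sum_congr rfl fun m _ => ?_
      rw [sum_comm]
      refine sum_congr rfl fun n _ => ?_
      have e2 : ∀ x0 ∈ iv k i, (if Q k (ix k x0) n m then f x0 m n else 0) =
          if Q k i n m then f x0 m n else 0 := fun x0 hx => by rw [mem_iv.1 hx]
      rw [sum_congr rfl e2]
      split_ifs
      · rfl
      · simp
    rw [e1 fun x0 m n => sqb k n m (A x0 (k + 1)), e1 fun _ _ _ => μ * 4 ^ k]
    refine sum_le_sum fun m hm' => sum_le_sum fun n hn' => ?_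
    split_ifs
    · refine (hm k hk i n hn' m hm').trans (le_of_eq ?_)
      rw [sum_const, card_iv, nsmul_eq_mul]
      push_cast
      have h8 : (8 : ℝ) ^ k = 2 ^ k * 4 ^ k := by rw [← mul_pow]; norm_num
      rw [h8]
      ring
    · exact le_rfl
  have h1 : ∀ x0, ∑ k ∈ range K, ∑ m ∈ iv (K - k) S, ∑ n ∈ iv (K - k) R,
      (if Q k (ix k x0) n m then μ * 4 ^ k else 0) ≤ μ * (c * 4 ^ K) := by
    intro x0
    refine le_trans (le_of_eq ?_) (mul_le_mul_of_nonneg_left (hq x0) hμ)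
    rw [mul_sum]
    refine sum_congr rfl fun k _ => ?_
    rw [mul_sum]
    refine sum_congr rfl fun m _ => ?_
    rw [mul_sum]
    refine sum_congr rfl fun n _ => ?_
    split_ifs <;> simp
  unfold H958.pwr H736.sqQ
  rw [sum_comm]
  calc ∑ k ∈ range K, ∑ x0 ∈ iv K t, ∑ m ∈ iv (K - k) S, ∑ n ∈ iv (K - k) R,
        (if Q k (ix k x0) n m then sqb k n m (A x0 (k + 1)) else 0)
      ≤ ∑ k ∈ range K, ∑ x0 ∈ iv K t, ∑ m ∈ iv (K - k) S, ∑ n ∈ iv (K - k) R,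
        (if Q k (ix k x0) n m then μ * 4 ^ k else 0) :=
        sum_le_sum fun k hk => step k (mem_range.1 hk)
    _ = ∑ x0 ∈ iv K t, ∑ k ∈ range K, ∑ m ∈ iv (K - k) S, ∑ n ∈ iv (K - k) R,
        (if Q k (ix k x0) n m then μ * 4 ^ k else 0) := sum_comm
    _ ≤ ∑ _x0 ∈ iv K t, μ * (c * 4 ^ K) := sum_le_sum fun x0 _ => h1 x0
    _ = _ := by
        rw [sum_const, card_iv, nsmul_eq_mul]
        push_cast
        have h8 : (8 : ℝ) ^ K = 2 ^ K * 4 ^ K := by rw [← mul_pow]; norm_num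
        rw [h8]
        ring

variable {ι : Type} [Fintype ι] [DecidableEq ι] {q : H401.Num} {n : ℕ} {ez : ℝ}
  {F1 F2 F3 : ℕ → Pt → ℝ} {K : ℕ} {x : Pt} {s r : ℝ} {U : Tri} {g : ℤ → ℤ → ℝ}
  {u v : ℤ → ℤ → ι → ℝ} {A : FamA} {b C : FamV ι} {Q1 Q2 Q3 : ℕ → Pt → Prop}
  {v' : ℤ → ℤ → ι → ℝ}

/-! ### The scalar slot -/

/-- **Caps of the scalar slot**, outer `y`, middle `z`, rectangles. -/
theorem capA_fd (h : FDs q n ez F1 F2 F3 K x s r U g u v A b C Q1 Q2 Q3 v') (x0 : ℤ)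
    {k a j : ℕ} (hka : k ≤ a) (haK : a ≤ K) (hkj : k ≤ j) (hj : j ≤ k + 1) (hjK : j ≤ K)
    (n' m' : ℤ) : ((q.th s r ^ 2) • (1 : Matrix (Ix k) (Ix k) ℝ) -
      PA (fun y z => A x0 j z y) k a n' m').PosSemidef := by
  have h1 : ∀ n m, CapS (q.th s r ^ 2) k k (un fun y z => A x0 j z y) n m := by
    intro n m
    refine capS_swap (sq_nonneg _) ?_
    rcases (by omega : j = k ∨ j = k + 1) with rfl | rfl
    · exact h.capA x0 j (hka.trans haK) m n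
    · exact h.capA1 x0 k (by omega) m n
  have h2 := capS_rects h1 (a - k) n' m'
  rw [Nat.add_sub_cancel' hka] at h2
  exact psd_rect h2

/-- the power of the scalar slot at one `x0` -/
def eaF (q : H401.Num) (U : Tri) (K : ℕ) (Q1 : ℕ → Pt → Prop) (A : FamA) (x : Pt) (x0 : ℤ) : ℝ :=
  pwr K (cx K x).2.2 (cx K x).2.1 (fun k n m => qA q U K Q1 k (ix k x0) n m) (A x0)

theorem eaF_nonneg (q : H401.Num) (U : Tri) (K : ℕ) (Q1 : ℕ → Pt → Prop) (A : FamA) (x : Pt)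
    (x0 : ℤ) : 0 ≤ eaF q U K Q1 A x x0 := pwr_nonneg ..

theorem path_fd (h : FDs q n ez F1 F2 F3 K x s r U g u v A b C Q1 Q2 Q3 v') (x0 : ℤ) :
    Path K (cx K x).2.2 (cx K x).2.1 (fun k n m => qA q U K Q1 k (ix k x0) n m) (A x0) :=
  fun k hk n' _ m' _ hq z hz y hy => h.agA x0 k hk n' m' hq z hz y hy

theorem zero_fd (h : FDs q n ez F1 F2 F3 K x s r U g u v A b C Q1 Q2 Q3 v') (x0 : ℤ) :
    A x0 0 = 0 := by
  funext z y
  exact h.z0A x0 z y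

/-- energy at time `1` -/
theorem hEA_fd (h : FDs q n ez F1 F2 F3 K x s r U g u v A b C Q1 Q2 Q3 v') (x0 : ℤ)
    (hK : 0 < K) : ∑ y ∈ iv K (cx K x).2.1, ∑ z ∈ iv K (cx K x).2.2, A x0 (0 + 1) z y ^ 2 ≤
      eaF q U K Q1 A x x0 := by
  exact en_le_pwr (path_fd h x0) (zero_fd h x0) 1 hK

/-- mass on the affected squares -/
theorem hDA_fd (q : H401.Num) (U : Tri) (K : ℕ) (Q1 : ℕ → Pt → Prop) (A : FamA) (x : Pt)
    (x0 : ℤ) : ∑ k ∈ Ico (0 + 1) K, ∑ y ∈ iv K (cx K x).2.1, ∑ z ∈ iv K (cx K x).2.2,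
      (if qA q U K Q1 k (ix k x0) (ix k z) (ix k y) then A x0 (k + 1) z y ^ 2 else 0) ≤
      eaF q U K Q1 A x x0 := by
  refine le_trans ?_ (born_le_pwr (N := K) (R := (cx K x).2.2) (S := (cx K x).2.1)
    (Q := fun k n m => qA q U K Q1 k (ix k x0) n m) (F := A x0)
    (H := fun k n m => qA q U K Q1 k (ix k x0) n m) fun _ _ _ _ h => h)
  refine sum_le_sum_of_subset_of_nonneg ?_ fun k _ _ => ?_
  · intro k hk
    rw [mem_range]
    exact (mem_Ico.1 hk).2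
  · refine sum_nonneg fun _ _ => sum_nonneg fun _ _ => ?_
    split_ifs
    · exact sq_nonneg _
    · exact le_rfl

/-- **Sum over `x0`.** -/
theorem eaF_sum (h : FDs q n ez F1 F2 F3 K x s r U g u v A b C Q1 Q2 Q3 v') (hK : K ≤ n)
    (hCD : 0 ≤ q.CD) (hΛ : 0 ≤ q.Lm) (hs : 0 ≤ s) :
    ∑ t ∈ rt (cx K x), ∑ x0 ∈ iv K t, eaF q U K Q1 A x x0 ≤
      3 * ((q.cP + 2) * (q.CD * (q.Lm * s)) * 8 ^ K) := by
  have h1 : ∀ t ∈ rt (cx K x), ∑ x0 ∈ iv K t, eaF q U K Q1 A x x0 ≤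
      (q.cP + 2) * (q.CD * (q.Lm * s)) * 8 ^ K := by
    intro t _
    unfold eaF
    refine pwr_sum (Q := fun k i n m => qA q U K Q1 k i n m) (by positivity) ?_ ?_ t
    · intro k hk i n' hn' m' hm'
      refine le_trans (le_of_eq ?_) (h.massA k hk.le (k + 1) (Or.inr ⟨rfl, hk⟩) i n' hn' m' hm')
      refine sum_congr rfl fun x0 _ => ?_
      unfold H736.sqb
      exact sum_comm
    · intro x0
      refine le_trans ?_ (QD_pack (Dd_sst q.Lm U.2.2 K) h.B1 x0 hK (cx K x).2.1 (cx K x).2.2)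
      refine sum_le_sum_of_subset_of_nonneg (range_subset_range.2 (Nat.le_succ K)) ?_
      intro k _ _
      refine sum_nonneg fun _ _ => sum_nonneg fun _ _ => ?_
      split_ifs
      · positivity
      · exact le_rfl
  refine (sum_le_card_nsmul _ _ _ h1).trans (le_of_eq ?_)
  have hcard : (rt (cx K x)).card = 3 := by
    unfold H677.rt
    rw [Int.card_Icc]
    omega
  rw [hcard, nsmul_eq_mul]
  push_cast
  ring

/-! ### The vector slot -/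

/-- **The data of the vector slot at one `x0`**, order `c k z x1`. -/
structure CSd {ι : Type} [Fintype ι] [DecidableEq ι] (q : H401.Num) (U : Tri) (K : ℕ) (x : Pt)
    (o : ℤ) (Q1 Q2 : ℕ → Pt → Prop) (σ : ℝ) (x0 : ℤ) (c : ℕ → ℤ → ℤ → ι → ℝ) (E : ℝ) : Prop where
  /-- rows off the affected squares -/
  row : ∀ k, 0 < k → k < K → ∀ x1 m, ¬ qC q U K Q2 k (ix k x0) m (ix k x1) →
    (∀ z ∈ iv k m, c (k + 1) z x1 = c k z x1) ∨ (∀ z ∈ iv k m, c (k + 1) z x1 = 0)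
  /-- the cap -/
  cap : ∀ k a n m, 0 < k → k ≤ a → a ≤ K → n ∈ iv (K - a) (cx K x).1 →
    m ∈ iv (K - k) (cx K x).2.2 → (σ • (1 : Matrix (Ix k) (Ix k) ℝ) -
      QW a k (fun x1 z => c k z x1) (fun _ => (1 : Matrix ι ι ℝ)) n m).PosSemidef
  nE : 0 ≤ E
  /-- energy at time `1` -/
  e1 : 0 < K → ∑ x1 ∈ iv K (cx K x).1, ∑ z ∈ iv K (cx K x).2.2, c 1 z x1 ⬝ᵥ c 1 z x1 ≤ E
  /-- mass on the affected squares of `C` -/
  e2 : ∑ k ∈ Ico 1 K, ∑ x1 ∈ iv K (cx K x).1, ∑ z ∈ iv K (cx K x).2.2,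
    (if qC q U K Q2 k (ix k x0) (ix k z) (ix k x1) then
      c (k + 1) z x1 ⬝ᵥ c (k + 1) z x1 else 0) ≤ E
  /-- mass on the nodes over the affected squares of `A` -/
  e3 : ∑ k ∈ Ico 1 K, GW K (cx K x).2.1 (cx K x).2.2 (cx K x).1 k (cP o x0 k) (fun n2 n1 m =>
    if qA q U K Q1 k (ix k x0) m n2 then
      (QW k k (fun x1 z => c (k + 1) z x1) (fun _ => (1 : Matrix ι ι ℝ)) n1 m).trace else 0) ≤ E

/-- the raw square sum at one `x0`, families in the order `(z, y)` and `(z, x1)` -/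
def rf0 {ι : Type} [Fintype ι] [DecidableEq ι] (K : ℕ) (M : Pt) (pl : ℕ → ℤ)
    (A : ℕ → ℤ → ℤ → ℝ) (c : ℕ → ℤ → ℤ → ι → ℝ) : ℝ :=
  ∑ k ∈ range K, GW K M.2.1 M.2.2 M.1 (k + 1) (pl (k + 1)) (fun n2 n1 m =>
    (PA (fun y z => A (k + 1) z y) (k + 1) (k + 1) n2 m * (hd (k + 1) *
      QW (k + 1) (k + 1) (fun x1 z => c (k + 1) z x1) (fun _ => (1 : Matrix ι ι ℝ)) n1 m *
        hd (k + 1))).trace)

/-- **The raw square sum at one `x0`.** -/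
theorem star_x0 (h : FDs q n ez F1 F2 F3 K x s r U g u v A b C Q1 Q2 Q3 v') {o : ℤ}
    (ho : o = 1 ∨ o = -1) {σ : ℝ} (hσ : 0 < σ) {x0 : ℤ} {c : ℕ → ℤ → ℤ → ι → ℝ} {E : ℝ}
    (hc : CSd q U K x o Q1 Q2 σ x0 c E) :
    rf0 K (cx K x) (cP o x0) (A x0) c ≤
      16000 * (√(q.th s r ^ 2 * eaF q U K Q1 A x x0) * √(σ * E)) +
        400 * (q.th s r ^ 2 * E) := by
  unfold rf0
  rw [range_eq_Ico]
  refine H170.RowC.rawSq (k₀ := 0) (N := K) (Nat.zero_le K) (cP_pl ho x0) hσ (sq_nonneg _)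
    (fun k y z => A x0 k z y) (fun k x1 z => c k z x1)
    (Ps := fun k n2 m => qA q U K Q1 k (ix k x0) m n2)
    (Qs := fun k n1 m => qC q U K Q2 k (ix k x0) m n1) ?_ ?_ ?_ ?_ hc.nE (eaF_nonneg ..) ?_ ?_
    hc.e1 hc.e2 hc.e3
  · intro k _ hk y m hq z hz
    exact h.agA x0 k hk m (ix k y) hq z hz y (mem_iv.2 rfl)
  · intro k h0 hk x1 m hq
    exact hc.row k h0 hk x1 m hq
  · intro k a n m _ hka haK j h0 hkj hj hjK _ _
    exact capA_fd h x0 hka haK hkj hj hjK n m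
  · intro k a n m h0 hka haK hn hm
    exact hc.cap k a n m h0 hka haK hn hm
  · intro h0
    exact hEA_fd h x0 h0
  · exact hDA_fd q U K Q1 A x x0

/-- **The right factor of the stopped part.** -/
def RF {ι : Type} [Fintype ι] [DecidableEq ι] (K : ℕ) (M : Pt) (o : ℤ) (A : FamA)
    (c' : FamV ι) : ℝ :=
  ∑ t ∈ rt M, ∑ x0 ∈ iv K t, rf0 K M (cP o x0) (A x0) (c' x0)

/-- **The right factor from the energies of the vector slot.** -/
theorem star_le (h : FDs q n ez F1 F2 F3 K x s r U g u v A b C Q1 Q2 Q3 v') (hK : K ≤ n)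
    (hCD : 0 ≤ q.CD) (hΛ : 0 ≤ q.Lm) (hs : 0 ≤ s) {o : ℤ} (ho : o = 1 ∨ o = -1) {σ : ℝ}
    (hσ : 0 < σ) {c' : FamV ι} {E : ℤ → ℝ} (hc : ∀ x0, CSd q U K x o Q1 Q2 σ x0 (c' x0) (E x0))
    {B : ℝ} (hB : ∑ t ∈ rt (cx K x), ∑ x0 ∈ iv K t, E x0 ≤ B) :
    RF K (cx K x) o A c' ≤ 16000 * (√(q.th s r ^ 2 *
      (3 * ((q.cP + 2) * (q.CD * (q.Lm * s)) * 8 ^ K))) * √(σ * B)) +
        400 * (q.th s r ^ 2 * B) := by
  have hτ : 0 ≤ q.th s r ^ 2 := sq_nonneg _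
  have h1 : RF K (cx K x) o A c' ≤ ∑ t ∈ rt (cx K x), ∑ x0 ∈ iv K t,
      (16000 * (√(q.th s r ^ 2 * eaF q U K Q1 A x x0) * √(σ * E x0)) +
        400 * (q.th s r ^ 2 * E x0)) :=
    sum_le_sum fun t _ => sum_le_sum fun x0 _ => star_x0 h ho hσ (hc x0)
  refine h1.trans ?_
  have e1 : ∑ t ∈ rt (cx K x), ∑ x0 ∈ iv K t,
      (16000 * (√(q.th s r ^ 2 * eaF q U K Q1 A x x0) * √(σ * E x0)) +
        400 * (q.th s r ^ 2 * E x0)) =
      16000 * (∑ t ∈ rt (cx K x), ∑ x0 ∈ iv K t,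
        √(q.th s r ^ 2 * eaF q U K Q1 A x x0) * √(σ * E x0)) +
        400 * (q.th s r ^ 2 * ∑ t ∈ rt (cx K x), ∑ x0 ∈ iv K t, E x0) := by
    simp only [mul_sum, sum_add_distrib]
  rw [e1]
  have nE : ∀ x0, 0 ≤ E x0 := fun x0 => (hc x0).nE
  have n1 : ∀ x0, 0 ≤ q.th s r ^ 2 * eaF q U K Q1 A x x0 :=
    fun x0 => mul_nonneg hτ (eaF_nonneg ..)
  have n2 : ∀ x0, 0 ≤ σ * E x0 := fun x0 => mul_nonneg hσ.le (nE x0)
  have h2 : ∑ t ∈ rt (cx K x), ∑ x0 ∈ iv K t,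
      √(q.th s r ^ 2 * eaF q U K Q1 A x x0) * √(σ * E x0) ≤
      √(∑ t ∈ rt (cx K x), ∑ x0 ∈ iv K t, q.th s r ^ 2 * eaF q U K Q1 A x x0) *
        √(∑ t ∈ rt (cx K x), ∑ x0 ∈ iv K t, σ * E x0) := by
    refine (sum_le_sum fun t _ => Real.sum_sqrt_mul_sqrt_le (iv K t) (fun x0 => n1 x0)
      fun x0 => n2 x0).trans ?_
    exact Real.sum_sqrt_mul_sqrt_le (rt (cx K x)) (fun t => sum_nonneg fun x0 _ => n1 x0)
      fun t => sum_nonneg fun x0 _ => n2 x0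
  have h3 : ∑ t ∈ rt (cx K x), ∑ x0 ∈ iv K t, q.th s r ^ 2 * eaF q U K Q1 A x x0 ≤
      q.th s r ^ 2 * (3 * ((q.cP + 2) * (q.CD * (q.Lm * s)) * 8 ^ K)) := by
    simp only [← mul_sum]
    exact mul_le_mul_of_nonneg_left (eaF_sum h hK hCD hΛ hs) hτ
  have h4 : ∑ t ∈ rt (cx K x), ∑ x0 ∈ iv K t, σ * E x0 ≤ σ * B := by
    simp only [← mul_sum]
    exact mul_le_mul_of_nonneg_left hB hσ.le
  refine add_le_add (mul_le_mul_of_nonneg_left (h2.trans ?_) (by norm_num))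
    (mul_le_mul_of_nonneg_left (mul_le_mul_of_nonneg_left hB hτ) (by norm_num))
  exact mul_le_mul (Real.sqrt_le_sqrt h3) (Real.sqrt_le_sqrt h4) (Real.sqrt_nonneg _)
    (Real.sqrt_nonneg _)

end

end Vale.Agent.P141.H749.Star
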