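import Vale.Agent.P141.H401.PartF

/-!
# P141, line (A): the number of the right factor in closed form

* `star_real` : the right side of `star_le` at `τ = th ^ 2`, `σ = 4 (√(Λ s) ez)` and
  `B = CE (ez (s 8 ^ K)) t ^ (-d) Y`, `0 ≤ Y ≤ 1`.
-/

namespace Vale.Agent.P141.H749.Star

noncomputable section

/-- `th = t s^(1/4) (r / t)^k3` -/
theorem th_eq (q : H401.Num) (ht : 0 < q.t) {s r : ℝ} (hr : 0 < r) :
    q.th s r = q.t * s ^ (1 / 4 : ℝ) * (r / q.t) ^ q.k3 := by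
  unfold H401.Num.th
  rw [Real.div_rpow hr.le ht.le, Real.rpow_sub ht, Real.rpow_one]
  ring

/-- `t ^ (-d) ≤ (r / t) ^ d` -/
theorem Lm_le (q : H401.Num) (ht : 0 < q.t) {r : ℝ} (hr : 1 ≤ r) (hd : 0 ≤ q.d) :
    q.Lm ≤ (r / q.t) ^ q.d := by
  unfold H401.Num.Lm
  rw [Real.rpow_neg ht.le, ← Real.inv_rpow ht.le]
  refine Real.rpow_le_rpow (inv_nonneg.2 ht.le) ?_ hd
  rw [inv_eq_one_div]
  exact div_le_div_of_nonneg_right hr ht.le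

theorem th_sq (q : H401.Num) (ht : 0 < q.t) {s r : ℝ} (hs : 0 ≤ s) (hr : 0 < r) :
    q.th s r ^ 2 = q.t ^ 2 * √s * ((r / q.t) ^ q.k3) ^ 2 := by
  have hb2 : (s ^ (1 / 4 : ℝ)) ^ 2 = √s := by
    rw [← Real.rpow_natCast, ← Real.rpow_mul hs, Real.sqrt_eq_rpow]
    norm_num
  rw [th_eq q ht hr, ← hb2]
  ring

theorem s32_eq {s : ℝ} (hs : 0 ≤ s) : s ^ (3 / 2 : ℝ) = √s * s := by
  rcases hs.eq_or_lt with h0 | h0
  · rw [← h0, Real.sqrt_zero, Real.zero_rpow (by norm_num)]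
    ring
  · rw [show (3 / 2 : ℝ) = 1 / 2 + 1 by norm_num, Real.rpow_add h0, Real.rpow_one,
      Real.sqrt_eq_rpow]

theorem X_eq {ρ a b : ℝ} (hρ : 0 < ρ) : ρ ^ (2 * a + 2 * b) = (ρ ^ a) ^ 2 * (ρ ^ b) ^ 2 := by
  rw [Real.rpow_add hρ, mul_comm 2 a, mul_comm 2 b, Real.rpow_mul hρ.le,
    Real.rpow_mul hρ.le]
  norm_num

section pure

variable {t p w L S s ez h8 c1 CE Y : ℝ}

theorem pure1 (hw : 1 ≤ w) (hL : L ≤ w) (hS : 0 ≤ S) (hs : 0 ≤ s)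
    (h8' : 0 ≤ h8) (hc : 0 ≤ c1) :
    t ^ 2 * S * p ^ 2 * (c1 * (L * s) * h8) ≤ c1 * (t * p * w) ^ 2 * (S * s * h8) := by
  have e1 : t ^ 2 * S * p ^ 2 * (c1 * (L * s) * h8) = c1 * (t * p) ^ 2 * (S * s * h8) * L := by
    ring
  have e2 : c1 * (t * p * w) ^ 2 * (S * s * h8) = c1 * (t * p) ^ 2 * (S * s * h8) * w ^ 2 := by
    ring
  rw [e1, e2]
  refine mul_le_mul_of_nonneg_left ?_ (by positivity)
  nlinarith

theorem pure2 {R : ℝ} (hL0 : 0 ≤ L) (hw : 1 ≤ w) (hL : L ≤ w) (hS : 0 ≤ S) (hs : 0 ≤ s)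
    (h8' : 0 ≤ h8) (hez : 0 ≤ ez) (hCE : 0 ≤ CE) (hY : 0 ≤ Y) (hR : R ≤ w * S) :
    4 * (R * ez) * (CE * (ez * (s * h8)) * L * Y) ≤
      (4 * CE) * (ez * w) ^ 2 * (S * s * h8) * Y := by
  have e1 : (4 * CE) * (ez * w) ^ 2 * (S * s * h8) * Y =
      (w * S) * w * (4 * CE * ez ^ 2 * s * h8 * Y) := by ring
  have e2 : 4 * (R * ez) * (CE * (ez * (s * h8)) * L * Y) =
      R * L * (4 * CE * ez ^ 2 * s * h8 * Y) := by ring
  rw [e1, e2]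
  refine mul_le_mul_of_nonneg_right ?_ (by positivity)
  exact mul_le_mul hR hL hL0 (by positivity)

theorem pure3 {V : ℝ} (ht : 0 ≤ t) (ht1 : t ≤ 1) (hL0 : 0 ≤ L) (hw : 1 ≤ w) (hL : L ≤ w)
    (hS : 0 ≤ S) (hs : 0 ≤ s) (h8' : 0 ≤ h8) (hez : 0 ≤ ez) (hCE : 0 ≤ CE) (hY : 0 ≤ Y)
    (hV : Y ≤ V) :
    t ^ 2 * S * p ^ 2 * (CE * (ez * (s * h8)) * L * Y) ≤
      CE * (t * (p ^ 2 * w ^ 2) * ez * (S * s * h8)) * V := by
  have e1 : t ^ 2 * S * p ^ 2 * (CE * (ez * (s * h8)) * L * Y) =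
      t ^ 2 * L * (CE * p ^ 2 * ez * (S * s * h8)) * Y := by ring
  have e2 : CE * (t * (p ^ 2 * w ^ 2) * ez * (S * s * h8)) * V =
      t * w ^ 2 * (CE * p ^ 2 * ez * (S * s * h8)) * V := by ring
  rw [e1, e2]
  have h1 : t ^ 2 ≤ t := by nlinarith
  have h2 : L ≤ w ^ 2 := by nlinarith
  have h3 : t ^ 2 * L ≤ t * w ^ 2 := mul_le_mul h1 h2 hL0 ht
  exact mul_le_mul (mul_le_mul_of_nonneg_right h3 (by positivity)) hV hY (by positivity)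

theorem pure4 {A B P Q Z V : ℝ} (hP : 0 ≤ P) (hA : A ≤ P * (t * p * w) * √Z)
    (hB : B ≤ Q * (ez * w) * √Z * V) (hB0 : 0 ≤ B) (hQ : 0 ≤ Q) (ht : 0 ≤ t) (hp : 1 ≤ p)
    (hw : 1 ≤ w) (hez : 0 ≤ ez) (hZ : 0 ≤ Z) (hV : 0 ≤ V) :
    A * B ≤ P * Q * (t * (p ^ 2 * w ^ 2) * ez * Z) * V := by
  have hz := Real.sqrt_nonneg Z
  refine (mul_le_mul hA hB hB0 (by positivity)).trans ?_
  have e1 : P * (t * p * w) * √Z * (Q * (ez * w) * √Z * V) =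
      p * (P * Q * t * w ^ 2 * ez * (√Z * √Z) * V) := by ring
  have e2 : P * Q * (t * (p ^ 2 * w ^ 2) * ez * Z) * V =
      p ^ 2 * (P * Q * t * w ^ 2 * ez * Z * V) := by ring
  rw [e1, e2, Real.mul_self_sqrt hZ]
  have h1 : p ≤ p ^ 2 := by nlinarith
  exact mul_le_mul_of_nonneg_right h1 (by positivity)

end pure

/-- the constant of the right factor -/
def CR (cP CD CE : ℝ) : ℝ := 16000 * (√(3 * ((cP + 2) * CD)) * √(4 * CE)) + 400 * CE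

theorem CR_nonneg {cP CD CE : ℝ} (hCE : 0 ≤ CE) : 0 ≤ CR cP CD CE := by
  unfold CR
  have h1 := Real.sqrt_nonneg (3 * ((cP + 2) * CD))
  have h2 := Real.sqrt_nonneg (4 * CE)
  positivity

/-- **The closed number.** -/
theorem star_real (q : H401.Num) (ht : 0 < q.t) (ht1 : q.t ≤ 1) {s r ez : ℝ} (hs : 0 ≤ s)
    (hr : 1 ≤ r) (hez : 0 ≤ ez) (hd : 0 ≤ q.d) (hk3 : 0 ≤ q.k3) (hcP : 0 ≤ q.cP)
    (hCD : 0 ≤ q.CD) {CE Y : ℝ} (hCE : 0 ≤ CE) (hY : 0 ≤ Y) (hY1 : Y ≤ 1) (K : ℕ) :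
    16000 * (√(q.th s r ^ 2 * (3 * ((q.cP + 2) * (q.CD * (q.Lm * s)) * 8 ^ K))) *
      √(4 * (√(q.Lm * s) * ez) * (CE * (ez * (s * 8 ^ K)) * q.Lm * Y))) +
      400 * (q.th s r ^ 2 * (CE * (ez * (s * 8 ^ K)) * q.Lm * Y)) ≤
    CR q.cP q.CD CE * (q.t * (r / q.t) ^ (2 * q.k3 + 2 * q.d) * s ^ (3 / 2 : ℝ) * ez * 8 ^ K) *
      √Y := by
  have hr0 : 0 < r := by linarith
  have hρ : 1 ≤ r / q.t := by
    rw [le_div_iff₀ ht]
    linarith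
  have hρ0 : 0 < r / q.t := by linarith
  have hL : q.Lm ≤ (r / q.t) ^ q.d := Lm_le q ht hr hd
  have hL0 : 0 ≤ q.Lm := (Real.rpow_pos_of_pos ht _).le
  have hp1 : 1 ≤ (r / q.t) ^ q.k3 := Real.one_le_rpow hρ hk3
  have hw1 : 1 ≤ (r / q.t) ^ q.d := Real.one_le_rpow hρ hd
  rw [X_eq hρ0, s32_eq hs, th_sq q ht hs hr0]
  generalize (r / q.t) ^ q.k3 = p at hp1 ⊢
  generalize (r / q.t) ^ q.d = w at hL hw1 ⊢
  generalize q.Lm = L at hL hL0 ⊢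
  have hS : 0 ≤ √s := Real.sqrt_nonneg s
  have hR : √(L * s) ≤ w * √s := by
    rw [Real.sqrt_mul hL0]
    refine mul_le_mul_of_nonneg_right ?_ hS
    refine Real.sqrt_le_iff.2 ⟨by linarith, ?_⟩
    nlinarith
  have hR0 : 0 ≤ √(L * s) := Real.sqrt_nonneg _
  have h8 : (0 : ℝ) ≤ 8 ^ K := by positivity
  generalize (8 : ℝ) ^ K = e8 at h8 ⊢
  generalize √(L * s) = R at hR hR0 ⊢
  generalize √s = S at hS hR ⊢
  have ht0 := ht.le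
  generalize q.t = t at ht0 ht1 ⊢
  have hc1 : 0 ≤ 3 * ((q.cP + 2) * q.CD) := by positivity
  have hYs : Y ≤ √Y := Real.le_sqrt_of_sq_le (by nlinarith)
  have hYn : 0 ≤ √Y := Real.sqrt_nonneg _
  have hZ0 : 0 ≤ S * s * e8 := by positivity
  have s1 : √(t ^ 2 * S * p ^ 2 * (3 * ((q.cP + 2) * (q.CD * (L * s)) * e8))) ≤
      √(3 * ((q.cP + 2) * q.CD)) * (t * p * w) * √(S * s * e8) := by
    have g1 := pure1 (t := t) (p := p) (c1 := 3 * ((q.cP + 2) * q.CD)) hw1 hL hS hs h8 hc1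
    refine (Real.sqrt_le_sqrt (le_trans (le_of_eq ?_) g1)).trans (le_of_eq ?_)
    · ring
    · rw [Real.sqrt_mul (by positivity), Real.sqrt_mul hc1, Real.sqrt_sq (by positivity)]
  have s2 : √(4 * (R * ez) * (CE * (ez * (s * e8)) * L * Y)) ≤
      √(4 * CE) * (ez * w) * √(S * s * e8) * √Y := by
    have g2 := pure2 (ez := ez) (CE := CE) (Y := Y) hL0 hw1 hL hS hs h8 hez hCE hY hR
    refine (Real.sqrt_le_sqrt g2).trans (le_of_eq ?_)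
    rw [Real.sqrt_mul (by positivity), Real.sqrt_mul (by positivity), Real.sqrt_mul (by positivity),
      Real.sqrt_sq (by positivity)]
  have g3 := pure3 (p := p) (ez := ez) (CE := CE) (Y := Y) ht0 ht1 hL0 hw1 hL hS hs h8 hez hCE hY
    hYs
  have m1 := pure4 (Real.sqrt_nonneg (3 * ((q.cP + 2) * q.CD))) s1 s2 (Real.sqrt_nonneg _)
    (Real.sqrt_nonneg (4 * CE)) ht0 hp1 hw1 hez hZ0 hYn
  refine (add_le_add (mul_le_mul_of_nonneg_left m1 (by norm_num : (0 : ℝ) ≤ 16000))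
    (mul_le_mul_of_nonneg_left g3 (by norm_num : (0 : ℝ) ≤ 400))).trans (le_of_eq ?_)
  unfold CR
  ring

end

end Vale.Agent.P141.H749.Star
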