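import Vale.Agent.P141.H749.StarA
import Vale.Agent.P141.H749.StarR
import Vale.Agent.P141.H743.StopX
import Vale.Agent.P141.H743.CapCF

/-!
# P141, line (A): the right factor of the stopped part at class data

* `csd_mask` : the data of the masked stack at one `x0`;
* `star_fd` : the right factor, raw form; `star_pow` : the same at the caps `(r / t) ^ α`;
* `star_num` : the closed number.
-/

namespace Vale.Agent.P141.H749.Star

open Finset Matrix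
open Vale.Agent.P075 (Ix val)
open Vale.Agent.P141.PL (Pt iv ix mem_iv ix_ix cx card_iv)
open Vale.Agent.P141.PL.H315 (Tri)
open Vale.Agent.P141.H103 (un QW PA GW)
open Vale.Agent.P141.H401 (qA qC)
open Vale.Agent.P141.H677 (rt cP cP_pl)
open Vale.Agent.P141.H677.Sk (FDs FamA FamV)
open Vale.Agent.P141.H305 (Cls)
open Vale.Agent.P141.H215 (capV capV_nonneg)
open Vale.Agent.P141.H743 (Msk Cm EF EF_nonneg EF_en EF_kill EF_cross row_FDs capM_FDs msk_muT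
  num_pow)
open Vale.Agent.P141.H501 (muT)

noncomputable section

open scoped Classical

variable {ι : Type} [Fintype ι] [DecidableEq ι] {q : H401.Num} {n : ℕ} {ez : ℝ}
  {F1 F2 F3 : ℕ → Pt → ℝ} {K : ℕ} {x : Pt} {s r P : ℝ} {U : Tri} {g : ℤ → ℤ → ℝ}
  {u v : ℤ → ℤ → ι → ℝ} {A : FamA} {b C : FamV ι} {Q1 Q2 Q3 : ℕ → Pt → Prop}
  {v' : ℤ → ℤ → ι → ℝ}

theorem psd_up {m : Type*} [Fintype m] [DecidableEq m] {X : Matrix m m ℝ} {σ σ' : ℝ}
    (h : σ ≤ σ') (hX : (σ • (1 : Matrix m m ℝ) - X).PosSemidef) :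
    (σ' • (1 : Matrix m m ℝ) - X).PosSemidef := by
  have h1 : ((σ' - σ) • (1 : Matrix m m ℝ)).PosSemidef :=
    Matrix.PosSemidef.one.smul (sub_nonneg.2 h)
  have e : σ' • (1 : Matrix m m ℝ) - X = (σ • (1 : Matrix m m ℝ) - X) +
      (σ' - σ) • (1 : Matrix m m ℝ) := by
    rw [sub_smul]
    abel
  rw [e]
  exact hX.add h1

/-- **The data of the masked stack at one `x0`.** -/
theorem csd_mask (hD : FDs q n ez F1 F2 F3 K x s r U g u v A b C Q1 Q2 Q3 v')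
    (hC : Cls K x s r P U g u v) (ht : 0 < q.t) (hs : 0 ≤ s) (hez : 0 ≤ ez) (hKn : K ≤ n)
    {mu : ℤ → ℕ → ℤ → ℤ → ℝ} (hmu : Msk K mu) (o : ℤ) {σ : ℝ} (hσ : 4 * capV q.Lm s ez ≤ σ)
    (x0 : ℤ) : CSd q U K x o Q1 Q2 σ x0 (Cm mu C x0) (EF q o K x U Q1 Q2 mu C x0) where
  row _ _ hk x1 m hq := row_FDs hD hKn hmu x0 hk x1 m hq
  cap _ _ _ _ _ hka haK hn hm :=
    psd_up hσ (capM_FDs hD hC ht hs hez hKn hmu x0 hka haK hn hm)
  nE := EF_nonneg o mu x0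
  e1 h := EF_en o mu x0 h
  e2 := EF_kill o mu x0
  e3 := EF_cross o mu x0

/-- **The right factor of the stopped part, raw form.** -/
theorem star_fd (hD : FDs q n ez F1 F2 F3 K x s r U g u v A b C Q1 Q2 Q3 v')
    (hC : Cls K x s r P U g u v) (hKn : K ≤ n) (hez : 0 ≤ ez) (hCD : 0 ≤ q.CD) (ht : 0 < q.t)
    (hs : 0 < s) {o : ℤ} (ho : o = 1 ∨ o = -1) {mu : ℤ → ℕ → ℤ → ℤ → ℝ} (hmu : Msk K mu)
    {B : ℝ} (hB : ∑ t ∈ rt (cx K x), ∑ x0 ∈ iv K t, EF q o K x U Q1 Q2 mu C x0 ≤ B)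
    (hBz : ez = 0 → B = 0) :
    RF K (cx K x) o A (Cm mu C) ≤ 16000 * (√(q.th s r ^ 2 *
      (3 * ((q.cP + 2) * (q.CD * (q.Lm * s)) * 8 ^ K))) * √(4 * capV q.Lm s ez * B)) +
        400 * (q.th s r ^ 2 * B) := by
  have hL : 0 < q.Lm := Real.rpow_pos_of_pos ht _
  rcases hez.eq_or_lt with h0 | h0
  · have hB0 := hBz h0.symm
    have hcap : 4 * capV q.Lm s ez ≤ 1 := by
      unfold H215.capV
      rw [← h0]
      norm_num
    have h1 := star_le hD hKn hCD hL.le hs.le ho one_pos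
      (fun x0 => csd_mask hD hC ht hs.le hez hKn hmu o hcap x0) hB
    rw [hB0] at h1 ⊢
    rwa [mul_zero] at h1 ⊢
  · have hσ : 0 < 4 * capV q.Lm s ez := by
      unfold H215.capV
      have : 0 < √(q.Lm * s) := Real.sqrt_pos.2 (mul_pos hL hs)
      positivity
    exact star_le hD hKn hCD hL.le hs.le ho hσ
      (fun x0 => csd_mask hD hC ht hs.le hez hKn hmu o le_rfl x0) hB

/-- the constant of the energies -/
def CEp (cP α : ℝ) : ℝ := 3780000 * (5 + 40 * (cP + 2)) * (3 * α - 1)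

/-- **The right factor at the caps `(r / t) ^ α`, raw form.** -/
theorem star_pow (hD : FDs q n ez F1 F2 F3 K x s r U g u v A b C Q1 Q2 Q3 v')
    (hC : Cls K x s r P U g u v) (hKn : K ≤ n) (hez : 0 ≤ ez) (hCD : 0 ≤ q.CD)
    (hcP : 0 ≤ q.cP) (ht : 0 < q.t) (ht1 : q.t ≤ 1) (he : 0 ≤ q.e0) (hd : 0 ≤ q.d)
    (hs : 0 < s) (hr : 1 ≤ r) (Al : ℕ → Pt → Prop) {o : ℤ} (ho : o = 1 ∨ o = -1)
    {sg : ℕ → Pt → ℝ} (hsg : ∀ k m, |sg k m| ≤ 1) {α : ℝ} (hα : 1 ≤ α) :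
    RF K (cx K x) o A (Cm (muT Al o K (cx K x) sg (q.lam s r) u (H970.SkG.kg q.t r α)) C) ≤
      16000 * (√(q.th s r ^ 2 * (3 * ((q.cP + 2) * (q.CD * (q.Lm * s)) * 8 ^ K))) *
        √(4 * capV q.Lm s ez * (CEp q.cP α * (ez * (s * 8 ^ K)) * q.Lm *
          (r / q.t) ^ (4 - 6 * α)))) +
        400 * (q.th s r ^ 2 * (CEp q.cP α * (ez * (s * 8 ^ K)) * q.Lm *
          (r / q.t) ^ (4 - 6 * α))) := by
  refine star_fd hD hC hKn hez hCD ht hs ho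
    (msk_muT Al o K (cx K x) sg (q.lam s r) u (H970.SkG.kg q.t r α)) ?_ ?_
  · refine (num_pow hD hC hKn hez hcP ht ht1 he hd hs hr Al ho hsg hα).trans (le_of_eq ?_)
    unfold CEp H401.Num.Lm
    ring
  · intro h0
    rw [h0]
    ring

/-- **The closed number of the right factor.** -/
theorem star_num (hD : FDs q n ez F1 F2 F3 K x s r U g u v A b C Q1 Q2 Q3 v')
    (hC : Cls K x s r P U g u v) (hKn : K ≤ n) (hez : 0 ≤ ez) (hCD : 0 ≤ q.CD)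
    (hcP : 0 ≤ q.cP) (ht : 0 < q.t) (ht1 : q.t ≤ 1) (he : 0 ≤ q.e0) (hd : 0 ≤ q.d)
    (hk3 : 0 ≤ q.k3) (hs : 0 < s) (hr : 1 ≤ r) (Al : ℕ → Pt → Prop) {o : ℤ}
    (ho : o = 1 ∨ o = -1) {sg : ℕ → Pt → ℝ} (hsg : ∀ k m, |sg k m| ≤ 1) {α : ℝ} (hα : 1 ≤ α) :
    RF K (cx K x) o A (Cm (muT Al o K (cx K x) sg (q.lam s r) u (H970.SkG.kg q.t r α)) C) ≤
      CR q.cP q.CD (4 * CEp q.cP α) *
        (q.t * (r / q.t) ^ (2 * q.k3 + 2 * q.d) * s ^ (3 / 2 : ℝ) * ez * 8 ^ K) *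
          √((r / q.t) ^ (4 - 6 * α)) := by
  have hρ : 1 ≤ r / q.t := by
    rw [le_div_iff₀ ht]
    linarith
  have hCE : 0 ≤ CEp q.cP α := by
    unfold CEp
    have : 0 ≤ 3 * α - 1 := by linarith
    positivity
  have hY : 0 ≤ (r / q.t) ^ (4 - 6 * α) := Real.rpow_nonneg (by linarith) _
  have hY1 : (r / q.t) ^ (4 - 6 * α) ≤ 1 :=
    Real.rpow_le_one_of_one_le_of_nonpos hρ (by linarith)
  have hL : 0 ≤ q.Lm := (Real.rpow_pos_of_pos ht _).le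
  have h1 := star_pow hD hC hKn hez hCD hcP ht ht1 he hd hs hr Al ho hsg hα
  have h2 := star_real q ht ht1 hs.le hr hez hd hk3 hcP hCD
    (by linarith : 0 ≤ 4 * CEp q.cP α) hY hY1 K
  refine h1.trans (le_trans (add_le_add (le_of_eq ?_) ?_) h2)
  · congr 3
    unfold H215.capV
    ring
  · refine mul_le_mul_of_nonneg_left (mul_le_mul_of_nonneg_left ?_ (sq_nonneg _)) (by norm_num)
    have h3 : 0 ≤ CEp q.cP α * (ez * (s * 8 ^ K)) * q.Lm * (r / q.t) ^ (4 - 6 * α) := by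
      positivity
    have e : 4 * CEp q.cP α * (ez * (s * 8 ^ K)) * q.Lm * (r / q.t) ^ (4 - 6 * α) =
        4 * (CEp q.cP α * (ez * (s * 8 ^ K)) * q.Lm * (r / q.t) ^ (4 - 6 * α)) := by ring
    rw [e]
    linarith

end

end Vale.Agent.P141.H749.Star
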